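import Crest.Agent.X212.Lx5.Wd
import Crest.Agent.X212.Lns95.Lf

/-!
# Row 212, LN-LX (helper5): the topology of the model of a lens wall
-/

set_option autoImplicit false

namespace Crest.Agent.X212.Lx5

open Wd38 Line51 Nm96

/-- **LN-LX** -/
theorem lx {Γ : Nm} {C : Cx Γ} {P : Pm Γ} {κ lam : Type} [Fintype κ] [Fintype lam] [DecidableEq lam]
    {G : Tab C.kd κ} {K : LCx C P.Λ} {e : K3 ⊕ K3 ↪ lam} (D : LMd P G K e) (B b cut) :
    Lns95.LX (⟨_, D.M, D.N, B, b, cut⟩ : G75.LM κ lam) :=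
  ⟨lmd_sc D, lmd_hz D, lmd_lat D⟩

end Crest.Agent.X212.Lx5
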