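import Crest.Agent.X212.Dr59.Tex
import Crest.Agent.X212.Dr59.Rod
import Crest.Agent.X212.Nm96.Defs

/-!
# Row 212, LN-LX (helper5), part Rod: lens spaces and the inside of a lens arc in a rod manifold

* `hz_cov`, `hz_lens` : finite quotients of spheres have no first cohomology;
* `pt` (the path of the test), `ip_pt`, `rod_lat` : the lattice of the inside.
-/

set_option autoImplicit false
set_option linter.unusedSectionVars false

open Set Filter Topology Function MeasureTheory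
open scoped ContDiff Manifold Real
open Crest.Agent.R208.F (Ext)
open Crest.Agent.X212.Dr59 Crest.Agent.X212.Orx52
open Crest.Agent.X212.Rod53
open Crest.Agent.X212.Nm96 (lrd)

noncomputable section

namespace Crest.Agent.X212.Lx5

section cov

variable {E : Type*} [NormedAddCommGroup E] [NormedSpace ℝ E] [FiniteDimensional ℝ E]
  {H : Type*} [TopologicalSpace H] {I : ModelWithCorners ℝ E H}
  {M : Type*} [TopologicalSpace M] [ChartedSpace H M] [I.Boundaryless] [IsManifold I ∞ M]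
  {E' : Type*} [NormedAddCommGroup E'] [NormedSpace ℝ E'] [FiniteDimensional ℝ E']
  {H' : Type*} [TopologicalSpace H'] {J : ModelWithCorners ℝ E' H'}
  {N : Type*} [TopologicalSpace N] [ChartedSpace H' N] [J.Boundaryless] [IsManifold J ∞ N]

theorem e0_sub (u v : Ext E) : e0 (u - v) = e0 u - e0 v := map_sub e0L u v

theorem eq_zero_of_fin {X Y : Type*} {c : X → Y} {g : X → X} {f : X → ℝ} {r : ℝ} {y : X} (hf : (c ⁻¹' {c y}).Finite)
    (hg : ∀ z, c (g z) = c z) (s : ∀ z, f (g z) = f z + r) : r = 0 := by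
  have t : ∀ n : ℕ, c (g^[n] y) = c y ∧ f (g^[n] y) = f y + n * r := fun n => by
    induction n with
    | zero => simp
    | succ n ih => rw [iterate_succ_apply', hg, s, ih.1, ih.2]; exact ⟨rfl, by push_cast; ring⟩
  by_contra l
  refine infinite_of_injective_forall_mem (f := fun n : ℕ => g^[n] y) (fun n n' e => ?_) (fun n => (t n).1) hf
  exact Nat.cast_injective (mul_right_cancel₀ l (add_left_cancel ((t n).2.symm.trans ((congrArg f e).trans (t n').2))))

theorem deck {c : N → M} [PreconnectedSpace N] (hc : ContMDiff J I ∞ c) {g : N → N} (g1 : ContMDiff J J ∞ g)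
    (g2 : ∀ z, c (g z) = c z) {a : M → Ext E} {b : N → Ext E'} (b1 : Sm J univ b) (b2 : Dg 0 univ b)
    (b3 : ∀ x ∈ univ, dM J b x = pm J I c a x) : ∃ r, ∀ z, e0 (b (g z)) = e0 (b z) + r := by
  have mg : Mp J J univ univ g := Mp.of_contMDiff g1 (mapsTo_univ _ _)
  obtain ⟨r, hr⟩ := Cl.const_of_preconnected isOpen_univ isPreconnected_univ (I := J) (a := pm J J g b - b)
    ⟨(b1.pm mg).sub b1, (b2.pm mg.maps).sub b2, fun z _ => by
      rw [dM_sub ne0 (b1.pm mg z trivial) (b1 z trivial), dM_pm ne0 (g1 z) (b1 _ trivial),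
        pm_congr_right (b3 _ trivial), pm_comp ((hc _).mdifferentiableAt ne0) ((g1 z).mdifferentiableAt ne0),
        b3 z trivial, show c ∘ g = c from funext g2, sub_self]⟩
  refine ⟨r, fun z => ?_⟩
  have := congrArg e0 (hr z trivial)
  rw [Pi.sub_apply, e0_sub, pm_apply, e0_pb, e0_alg] at this
  exact eq_add_of_sub_eq' this

/-- **finite regular coverings** -/
theorem hz_cov [PreconnectedSpace N] {c : N → M} (hc : IsLocalDiffeomorph J I ∞ c) (hs : Surjective c)
    (hf : ∀ x, (c ⁻¹' {x}).Finite)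
    (hd : ∀ y y', c y = c y' → ∃ g : N → N, ContMDiff J J ∞ g ∧ (∀ z, c (g z) = c z) ∧ g y = y')
    (h : HZ J 1 (univ : Set N)) : HZ I 1 (univ : Set M) := fun a ha => by
  have m : Mp J I univ univ c := Mp.of_contMDiff hc.contMDiff (mapsTo_univ _ _)
  obtain ⟨b, b1, b2, b3⟩ := Ex.deg (k := 0) (h _ (ha.pm m)) (ha.pm m).dg
  have k : ∀ y y', c y = c y' → e0 (b y) = e0 (b y') := fun y y' e => by
    obtain ⟨g, g1, g2, rfl⟩ := hd y y' e
    obtain ⟨r, s⟩ := deck hc.contMDiff g1 g2 b1 b2 b3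
    rw [s, eq_zero_of_fin (f := fun z => e0 (b z)) (hf (c y)) g2 s, add_zero]
  have l : ∀ x, ∃ σ : M → N, ContMDiffAt I J ∞ σ x ∧ c ∘ σ =ᶠ[𝓝 x] id ∧
      fn E (fun z => e0 (b (surjInv hs z))) =ᶠ[𝓝 x] pm I J σ b := fun x => by
    obtain ⟨y, rfl⟩ := hs x
    have e := (hc y).localInverse_eventuallyEq_right
    refine ⟨_, (hc y).localInverse_contMDiffAt, e, e.mono fun z u => ?_⟩
    rw [pm_apply, eq_alg_of_deg (b2 _ trivial), AlgHom.commutes]
    exact congrArg (algebraMap ℝ (Ext E)) (k _ _ ((surjInv_eq hs z).trans u.symm))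
  refine ⟨fn E fun z => e0 (b (surjInv hs z)), fun x _ => ?_, fun x _ => ?_⟩ <;> obtain ⟨σ, s1, s2, s3⟩ := l x
  · exact (SmAt.pm s1 (b1 _ trivial)).congr s3
  · rw [dM_congr s3, dM_pm ne0 s1 (b1 _ trivial), pm_congr_right (b3 _ trivial),
      pm_comp ((hc.contMDiff _).mdifferentiableAt ne0) (s1.mdifferentiableAt ne0), pm_of_eventually_id s2]

end cov

/-- **lens spaces are rational homology spheres** -/
theorem hz_lens {a b : Z2} (h : LH a b) : HZ (𝓡 3) 1 (univ : Set (Lens h)) :=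
  hz_cov (ld_cov h) (cov_surj h) (finite_fibre h) (fun _ _ e =>
    let ⟨α, β, k, e⟩ := (cov_eq_iff h).1 e
    ⟨_, (sphD (n := 3) (rot α β)).contMDiff, cov_rot h k, e.symm⟩) (hz_sphere (d := 3) (k := 0) (by norm_num))

/-! ### the test -/

section pt

variable {x j k : ℤ} {t τ : ℝ}

theorem h12 : (0 : ℝ) < 1 / 12 := by norm_num

/-- the path of the test -/
def pt (x : ℤ) (t : ℝ) : ℝ × ℝ := sw (1 / 12) (t - (x + 3 / 4)) • (-2, 1) + sw (1 / 12) (t - (x + 1 : ℤ)) • (4, 0) +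
  sw (1 / 12) (t - (x + 3 : ℤ)) • (-2, -1)

/-- its orders -/
def od (x j : ℤ) : ℝ := if x < j ∧ j < x + 3 then 1 else 0

theorem pt_slot (h : t ∈ Ioo (j : ℝ) (j + 1)) : dr (pt x t) (lrd x j) = od x j := by
  simp only [pt, od, lrd, dr]
  rcases le_or_gt j x with a | a
  · have : (j : ℝ) ≤ x := by exact_mod_cast a
    rw [if_pos a, if_neg (by omega), sw_zero h12 (y := t - (x + 1 : ℤ)) (by push_cast; linarith [h.2]),
      sw_zero h12 (y := t - (x + 3 : ℤ)) (by push_cast; linarith [h.2])]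
    simp
  have : (x : ℝ) + 1 ≤ j := by exact_mod_cast a
  rw [if_neg a.not_ge, sw_one h12 (y := t - (x + 3 / 4)) (by linarith [h.1])]
  rcases le_or_gt j (x + 2) with b | b
  · have : (j : ℝ) ≤ x + 2 := by exact_mod_cast b
    rw [if_pos b, if_pos (by omega), sw_zero h12 (y := t - (x + 3 : ℤ)) (by push_cast; linarith [h.2])]
    simp
  · have : (x : ℝ) + 2 + 1 ≤ j := by exact_mod_cast b
    rw [if_neg b.not_ge, if_neg (by omega), sw_one h12 (y := t - (x + 1 : ℤ)) (by push_cast; linarith [h.1])]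
    simp
    ring

theorem sw_int (h : |t - j| < 1 / 12) (hτ : τ ∈ Icc (k : ℝ) (k + 3 / 4)) :
    sw (1 / 12) (t - τ) = if k < j then 1 else 0 := by
  have := abs_lt.1 h
  split_ifs with e
  · have : (k : ℝ) + 1 ≤ j := by exact_mod_cast e
    exact sw_one h12 (by linarith [hτ.2])
  · have : (j : ℝ) ≤ k := by exact_mod_cast not_lt.1 e
    exact sw_zero h12 (by linarith [hτ.1])

theorem hd_sw (z t : ℝ) : HasDerivAt (fun t => sw (1 / 12) (t - z)) (deriv (sw (1 / 12)) (t - z)) t :=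
  ((contDiff_sw _).differentiable (by simp) _).hasDerivAt.comp_sub_const t z

theorem adm_pt : Adm (wd (lrd x)) (pt x) := by
  have c : ∀ (z : ℝ) (u : ℝ × ℝ), ContDiff ℝ ∞ fun t => sw (1 / 12) (t - z) • u := fun z u =>
    ((contDiff_sw _).comp (contDiff_id.sub contDiff_const)).smul contDiff_const
  refine ⟨((c _ _).add (c _ _)).add (c _ _), fun t => ?_⟩
  rcases (Int.floor_le t).lt_or_eq with k | k
  · have o := isOpen_Ioo.mem_nhds (show t ∈ Ioo (⌊t⌋ : ℝ) (⌊t⌋ + 1) from ⟨k, Int.lt_floor_add_one t⟩)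
    exact eventually_of_mem (prod_mem_prod o o) fun z hz => by rw [wd_of_mem hz.2, pt_slot hz.1, pt_slot hz.2]
  · have o : Metric.ball (⌊t⌋ : ℝ) (1 / 12) ∈ 𝓝 t := by rw [k]; exact Metric.ball_mem_nhds _ h12
    have e : ∀ u ∈ Metric.ball (⌊t⌋ : ℝ) (1 / 12), ∀ u' ∈ Metric.ball (⌊t⌋ : ℝ) (1 / 12), ∀ (l : ℤ) τ,
        τ ∈ Icc (l : ℝ) (l + 3 / 4) → sw (1 / 12) (u - τ) = sw (1 / 12) (u' - τ) := fun u a u' b l τ c =>
      (sw_int a c).trans (sw_int b c).symm
    refine eventually_of_mem (prod_mem_prod o o) fun z hz => ?_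
    rw [pt, pt, e _ hz.1 _ hz.2 x _ ⟨by linarith, le_rfl⟩, e _ hz.1 _ hz.2 (x + 1) _ ⟨le_rfl, by linarith⟩,
      e _ hz.1 _ hz.2 (x + 3) _ ⟨le_rfl, by linarith⟩]

theorem pt_out (h : t ∉ Icc ((x : ℝ) + 5 / 6) (x + 19 / 6)) : ∀ᶠ u in 𝓝 t, pt x u = 0 := by
  rcases not_and_or.1 h with k | k
  · filter_upwards [eventually_le_nhds (not_le.1 k)] with u a
    rw [pt, sw_zero h12 (by linarith), sw_zero h12 (by push_cast; linarith), sw_zero h12 (by push_cast; linarith)]
    simp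
  · filter_upwards [eventually_ge_nhds (not_le.1 k)] with u a
    rw [pt, sw_one h12 (by linarith), sw_one h12 (by push_cast; linarith), sw_one h12 (by push_cast; linarith)]
    norm_num

theorem int_pt {A : ℝ → ℝ × ℝ} {n : ℤ → ℝ} (h : ∀ j : ℤ, ∀ t ∈ Ioo (j : ℝ) (j + 1), dr (A t) (lrd x j) = n j) :
    ∫ t, om A (pt x) t = n x - 4 * n (x + 1) + n (x + 3) := by
  have c : ∀ (l : ℤ) (τ t : ℝ), τ ∈ Icc (l : ℝ) (l + 3 / 4) →
      deriv (sw (1 / 12)) (t - τ) * dr (A t) (lrd x l) = deriv (sw (1 / 12)) (t - τ) * n l := fun l τ t a => by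
    by_cases c : t - τ ∈ Icc (1 / 12 : ℝ) (2 * (1 / 12))
    · rw [h l t ⟨by linarith [c.1, a.1], by linarith [c.2, a.2]⟩]
    · rw [deriv_sw h12 c, zero_mul, zero_mul]
  have e : ∀ t, om A (pt x) t = deriv (sw (1 / 12)) (t - (x + 3 / 4)) * n x +
      deriv (sw (1 / 12)) (t - (x + 1 : ℤ)) * (-4 * n (x + 1)) + deriv (sw (1 / 12)) (t - (x + 3 : ℤ)) * n (x + 3) :=
    fun t => by
      have c1 := c x _ t ⟨by linarith, le_rfl⟩
      have c2 := c (x + 1) _ t ⟨le_rfl, by linarith⟩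
      have c3 := c (x + 3) _ t ⟨le_rfl, by linarith⟩
      rw [lrd, if_pos le_rfl] at c1
      rw [lrd, if_neg (by omega), if_pos (by omega)] at c2
      rw [lrd, if_neg (by omega), if_neg (by omega)] at c3
      rw [om, show deriv (pt x) t = _ from ((((hd_sw _ t).smul_const _).add ((hd_sw _ t).smul_const _)).add
        ((hd_sw _ t).smul_const _)).deriv]
      simp only [dr, Prod.fst_add, Prod.snd_add, Prod.smul_fst, Prod.smul_snd, smul_eq_mul] at c1 c2 c3 ⊢
      push_cast at c1 c2 c3 ⊢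
      linear_combination c1 - 4 * c2 + c3
  have i : ∀ z r : ℝ, Integrable fun t => deriv (sw (1 / 12)) (t - z) * r := fun z r =>
    Integrable.mul_const (Integrable.comp_sub_right (((contDiff_sw _).continuous_deriv (by simp)).integrable_of_hasCompactSupport
      (HasCompactSupport.intro isCompact_Icc fun _ => deriv_sw h12)) _) _
  have v : ∀ z r : ℝ, ∫ t, deriv (sw (1 / 12)) (t - z) * r = r := fun z r => by
    rw [integral_mul_const, integral_sub_right_eq_self (deriv (sw (1 / 12))), integral_deriv_sw h12, one_mul]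
  simp only [e]
  rw [integral_add (by exact (i _ _).add (i _ _)) (i _ _), integral_add (i _ _) (i _ _), v, v, v]
  ring

theorem nv_lrd (x : ℤ) : nv (lrd x) x (x + 3) = 2 := by
  rw [show x + 3 = x + 1 + 1 + 1 by ring, nv_succ _ (by omega), nv_succ _ (by omega), nv_succ _ le_rfl, nv_self,
    show lrd x x = (1, 2) by simp [lrd], show lrd x (x + 1) = (0, 1) by simp +arith [lrd],
    show lrd x (x + 1 + 1) = (0, 1) by simp +arith [lrd], show lrd x (x + 1 + 1 + 1) = (-1, 2) by simp +arith [lrd]]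
  simp [Rod53.Uni, dt]

end pt

variable {EN HN : Type} [NormedAddCommGroup EN] [NormedSpace ℝ EN] [FiniteDimensional ℝ EN]
  [TopologicalSpace HN] {IN : ModelWithCorners ℝ EN HN} [IN.Boundaryless]
  {N : Type} [TopologicalSpace N] [ChartedSpace HN N] [IsManifold IN ∞ N] [T2Space N] {T : Tb IN N}
  {a : ℤ → Z2} {x : ℤ} {c r : ℝ} {o : N → Ext EN} {O : X T (wd a) → Ext E4}
  [MeasurableSpace E4] [BorelSpace E4] [MeasurableSpace (X T (wd a))] [BorelSpace (X T (wd a))]
  [SecondCountableTopology (X T (wd a))]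

/-- **the lattice inside a lens arc** -/
theorem rod_lat (e : a = lrd x) (ha : IsWd a) (hc : c = x + 2) (hr : r = 3 / 2) (hO : OX T (wd a) o O)
    (hτ : Pos Rod53.IT IN T.τ {z | z.2 ≠ 0} oT o) :
    ∃ φ, Dr59.Lat (𝓡 4) (-O) (T.disc (wd a) c (Iio r)) (T.disc (wd a) c (Iio r)) (fun _ : Unit => φ)
      (Matrix.diagonal fun _ => -4) ∧ ∀ F m, WC T a (T.disc (wd a) c (Iio r)) F m → ip (𝓡 4) (-O) F φ =
        2 * π * (dr (m x) (a x) - 4 * dr (m (x + 1)) (a (x + 1)) + dr (m (x + 3)) (a (x + 3))) := by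
  subst e hc hr
  have := Int54.sigmaCompact (I := 𝓡 4) (X T (wd (lrd x)))
  obtain ⟨ψ, h⟩ := exists_TG (T := T) (c := fun _ => 0) h12 (adm_pt (x := x)) contDiff_const (xa_zero T 1)
  have op := T.isOpen_disc (v := wd (lrd x)) (c := x + 2) (isOpen_Iio (a := (3 / 2 : ℝ)))
  have cs : Cs (𝓡 4) 2 (T.disc (wd (lrd x)) (x + 2) (Iio (3 / 2))) ψ :=
    (h.cs_ov (xa_zero T 1) (by norm_num) ha.loc isCompact_Icc fun u hu => by simpa using pt_out hu).mono
      fun p hp => ⟨hp.1, by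
        obtain ⟨-, ⟨a1, a2⟩, a3, a4⟩ := hp
        exact (Real.sqrt_lt' (by norm_num)).2 (by nlinarith)⟩
  have k : ∀ {F A} {n : ℤ → ℝ}, TF T (wd (lrd x)) (T.disc (wd (lrd x)) (x + 2) (Iio (3 / 2))) F A →
      (∀ j : ℤ, ∀ t ∈ Ioo (j : ℝ) (j + 1), dr (A t) (lrd x j) = n j) →
      ip (𝓡 4) (-O) F ψ = (2 * π) ^ 2 * (n x - 4 * n (x + 1) + n (x + 3)) := fun f g => by
    rw [ip_neg_ori, f.ip_eq hO hτ op h.tf cs, int_pt g, neg_neg]
  obtain ⟨B, hB, hd⟩ := hd_disc (T := T) (c := x + 2) (r := 3 / 2) ha (i := x) (j := x + 3) (by omega)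
    ⟨by linarith, by linarith⟩ ⟨by push_cast; linarith, by push_cast; linarith⟩ (nv_lrd x)
  have p : (2 * π : ℝ) ≠ 0 := by positivity
  refine ⟨(2 * π)⁻¹ • ψ, ⟨ori_neg hO.ori, op, subset_rfl, by simpa using hd.bd2 (bd_zero.2 (hB.hz 1)),
    fun _ => cs.smul _, fun _ _ => ?_, by simp⟩, fun F m ⟨h1, h2, G, h3, h4⟩ => ?_⟩
  · rw [ip_smul, ip_smul_right, k (h.tf.mono (subset_univ _)) fun _ _ => pt_slot]
    simp +arith only [od, Matrix.diagonal_apply_eq]
    norm_num
    field_simp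
  · rw [ip_smul_right, cs.ip_coh (ori_neg hO.ori) h1.sm h3.cl.sm h4,
      k h3 fun j _ ht => dr_pth (h2 j) ⟨by linarith [ht.1], ht.2⟩]
    field_simp

end Crest.Agent.X212.Lx5
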