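import Crest.Agent.X212.Lx5.Rod
import Crest.Agent.X212.Line51.Lp0
import Crest.Agent.X212.Loc8.Sc

/-!
# Row 212, LN-LX (helper5), part Wd: the inside of a lens arc in a word

* `arc_sc`, `arc_lat` : the inside is simply connected, its lattice;  `lmd_sc`, `lmd_hz`, `lmd_lat` : the model.
-/

set_option autoImplicit false
set_option linter.unusedSectionVars false

open Set Filter Topology Function
open scoped ContDiff Manifold Real
open Crest.Agent.R208.F (Ext)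
open Crest.Agent.X212.Dr59 Crest.Agent.X212.Orx52 Crest.Agent.X212.Wd38
open Crest.Agent.X212.Rod53 hiding X
open Crest.Agent.X212.Line51 (Ln WL LCx LMd vch on_comp op_tm bn_le bn_mid ls_ord lod K3)
open Crest.Agent.X212.Nm96 (lrd Pm)
open Crest.Agent.X212.Cyl58 (TP)
open Crest.Agent.X212.M (V4)

noncomputable section

namespace Crest.Agent.X212.Lx5

/-- the Borel structures -/
local instance mE (X : TP V4) : MeasurableSpace X.P.E := X.mf.mE

local instance bE (X : TP V4) : BorelSpace X.P.E := X.mf.bE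

/-- the Borel structures -/
local instance mM (X : TP V4) : MeasurableSpace X.P.M := X.mf.ms

local instance bM (X : TP V4) : BorelSpace X.P.M := X.mf.bs

variable {Γ : Nm} {C : Cx Γ} {Λ : NmL Γ} {w : Shp Γ} {L : LCx C Λ} {hw : w.OK} {X : TP V4} (R : Rz C hw X) {x : ℤ}
  {k : Γ.ι} {lam : Type} [Fintype lam] (hr : ∀ j, x ≤ j → j ≤ x + 3 → w.s j = .rod (k, lrd x j))
  (hW : (Bs.lA x (x + 3)).OK w)

theorem lt_r (x : ℤ) : ∀ s ∈ Iio (Bs.lA x (x + 3)).r0, s < (((x + 3 : ℤ) : ℝ) - x) / 2 + 1 / 4 := fun s a => by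
  have : s < (((x + 3 : ℤ) : ℝ) - x) / 2 := a
  linarith

theorem arc_sd : (R.bn ⟨.lA x (x + 3), []⟩ hW).wall.sd false =
    R.B hW.1 '' (C.T _).disc _ (cc x (x + 3)) (Iio (Bs.lA x (x + 3)).r0) :=
  (Set.ext fun z => R.bn_sd ⟨.lA x (x + 3), []⟩ hW (z := z)).trans
    ((R.spec_nk _ hW).f.trans (R.D_eq hW.1 (lt_r x)))

include hr

theorem bw_lrd : w.bw x (x + 3) = lrd x := funext fun j => by
  rcases le_or_gt j x with h | h
  · rw [Shp.bw_le h, hr x le_rfl (by omega), lrd, lrd, if_pos h, if_pos le_rfl]; rfl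
  rcases le_or_gt j (x + 3) with h' | h'
  · rw [Shp.bw_mid h h', hr j h.le h']; rfl
  · rw [Shp.bw_ge (by omega) h'.le, hr _ (by omega) le_rfl, lrd, lrd, if_neg (by omega), if_neg (by omega),
      if_neg (by omega), if_neg (by omega)]; rfl

/-- **the inside is simply connected** -/
theorem arc_sc : IsPreconnected ((R.bn ⟨.lA x (x + 3), []⟩ hW).wall.sd false) ∧
    ∀ z ∈ (R.bn ⟨.lA x (x + 3), []⟩ hW).wall.sd false, Dfl49.Sur {z} ((R.bn ⟨.lA x (x + 3), []⟩ hW).wall.sd false) := by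
  have := R.con
  have : LocallyConnectedSpace X.mf.M := Hz56.locConn (I := X.mf.I)
  have k := (R.bn ⟨.lA x (x + 3), []⟩ hW).wall.conn false
  refine ⟨k, fun _ => Loc8.sur_of_h1 (M.Wall.op_sd _ _) k fun G _ => ?_⟩
  have j := fun i : ℤ => bw_lrd hr ▸ hW.1.jr hw (show (i : ℝ) + 5 / 8 ∈ II i i from ⟨by linarith, by linarith⟩)
  refine (arc_sd R hW).symm.subst (motive := Hz56.H1 G) ((Hz56.tiso_h1 (R.B hW.1) fun p hp => C.tm_disc hp (lt_r x)).2
    (Hz56.h1_disc _ (.inl (by simp +arith [lrd, dt])) (j x) ?_ (j (x + 1)) ?_)) <;>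
    exact abs_lt.2 (by unfold cc Bs.r0; push_cast; constructor <;> linarith)

/-- **the lattice of the inside** -/
theorem arc_lat : ∃ e, Dr59.Lat X.mf.I (-R.O) ((R.bn ⟨.lA x (x + 3), []⟩ hW).wall.sd false)
    ((R.bn ⟨.lA x (x + 3), []⟩ hW).wall.sd false) (fun _ : Unit => e) (Matrix.diagonal fun _ => -4) ∧
    ∀ n (W : WL L R n lam), ip X.mf.I (-R.O) (Ln.F X.mf.I ⟨W.p, 0⟩) e =
      2 * π * (n.nr x - 4 * n.nl (x + 1) + n.nl (x + 3)) := by
  have h := hW.1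
  have := (C.T (w.kn x)).secondCountable (w.isWd_bz x (x + 3)).loc
  borelize E4 (Rod53.X (C.T (w.kn x)) (wd (w.bz x (x + 3))))
  obtain ⟨φ, l, q⟩ := rod_lat (T := C.T (w.kn x)) (c := cc x (x + 3)) (r := (Bs.lA x (x + 3)).r0)
    ((h.bz_eq hw).trans (bw_lrd hr)) (w.isWd_bz x (x + 3)) (by unfold cc; push_cast; ring)
    (by unfold Bs.r0; push_cast; ring) (C.ok_spec rfl) (pos_τ _ _)
  have ds := fun p (a : p ∈ (C.T _).disc (w.v x (x + 3)) _ _) => C.tm_disc a (lt_r x)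
  let ψ : PartialDiffeomorph (𝓡 4) X.mf.I (Rod53.X (C.T (w.kn x)) (wd (w.bz x (x + 3)))) X.mf.M ∞ := (R.B h).φ
  have s : _ ⊆ ψ.source := fun p a => (R.B h).src.ge (ds p a)
  have sm : Int54.SameOn (-C.ok w x (x + 3)) (pm (𝓡 4) X.mf.I ψ (-R.O)) _ :=
    (same_symm (R.O_spec.B h).neg).mono fun p a => ds p a
  have o := ori_neg R.O_spec.ori
  refine ⟨psh ψ φ, arc_sd R hW ▸ l.push ψ s o sm, fun n W => ?_⟩
  choose e he using vch hw W.ok h
  have m : Mp (𝓡 4) X.mf.I _ univ ψ := ⟨fun p a => ((R.B h).ld (ds p a)).contMDiffAt, mapsTo_univ _ _⟩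
  have a := on_comp W.ln m
  rw [(l.cs ()).ip_psh ψ s o l.ori sm, (l.cs ()).ip_congr (c' := Ln.F (𝓡 4) ⟨fun z => W.p (ψ z), 0⟩) fun p hp =>
    (W.ln.F_pull isOpen_univ l.op m hp).symm.trans (a.F_congr l.op (fun _ _ => rfl) (fun z _ => congrFun (pm_zero _) z) hp),
    q _ _ (wc_line' he l.op a ((W.tl h).mono ds))]
  simp only [dr_rc2, (he _).2]
  rw [bn_le le_rfl, bn_mid (by omega) (by omega), bn_mid (by omega) le_rfl]

omit hr

variable {P : Pm Γ} {κ : Type} [Fintype κ] [DecidableEq lam] {G : Tab C.kd κ} {K : LCx C P.Λ} {e : K3 ⊕ K3 ↪ lam}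
  (D : LMd P G K e)

theorem lmd_sc : IsPreconnected ((D.M.sys.w ()).sd false) ∧
    ∀ z ∈ (D.M.sys.w ()).sd false, Dfl49.Sur {z} ((D.M.sys.w ()).sd false) := by
  obtain ⟨x, e, -, -, r⟩ := D.h.ls _ D.mem
  obtain ⟨w, l, _⟩ := D
  subst e
  exact arc_sc _ (fun j a b => r j (by omega) (by omega)) _

theorem lmd_hz : HZ (D.M.bn ()).Y.I 1 (univ : Set (D.M.bn ()).Y.M) := by
  obtain ⟨x, e, -⟩ := D.h.ls _ D.mem
  obtain ⟨w, l, _⟩ := D
  subst e
  exact hz_lens _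

theorem lmd_lat : ∃ (e : Unit → (C.X D.h.w).mf.M → Ext (C.X D.h.w).mf.E) (d : Unit → ℝ),
    Dr59.Lat (C.X D.h.w).mf.I D.M.o ((D.M.sys.w ()).sd false) ((D.M.sys.w ()).sd false) e (Matrix.diagonal d) ∧ ∀ σ,
      (ip (C.X D.h.w).mf.I D.M.o (Ln.F (C.X D.h.w).mf.I ⟨(D.N σ).p, 0⟩) (e ()) / (2 * π)) ^ 2 / d () = -1 := by
  have o := fun σ j => D.sg σ ▸ ls_ord D.h (D.hn σ) D.mem (j := j)
  obtain ⟨x, e, -, -, r⟩ := D.h.ls _ D.mem
  obtain ⟨w, l, h, n, _, _, _, W, _⟩ := D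
  subst e
  simp only [Bs.lo] at o
  obtain ⟨φ, l, q⟩ := arc_lat (L := K) (lam := lam) (C.rz h.w) (fun j a b => r j (by omega) (by omega)) _
  refine ⟨_, _, l, fun σ => (congrArg (fun t => (t / (2 * π)) ^ 2 / -4) (q _ (W σ))).trans ?_⟩
  rw [(o σ _ (by omega) (by omega)).2, (o σ _ (by omega) (by omega)).1, (o σ _ (by omega) (by omega)).1,
    mul_div_cancel_left₀ _ (by positivity)]
  cases σ <;> norm_num [lod]

end Crest.Agent.X212.Lx5
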